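import Vale.Agent.P354SA.FD

/-!
ROOT and SLC: smooth roots, and the spheres on a slice.
-/

open scoped ContDiff
open Set Filter Topology

namespace Vale.Agent.P354HN

open Vale.Agent.P354n (R4)
open Vale.Agent.P354H (X3)
open Vale.Agent.P354RC (cv)
open Vale.Agent.P354YQ (SA)
open Vale.Agent.P354SA

theorem impl {F : R4 → ℝ} {s : ℝ} {x : X3} (hF : ContDiffAt ℝ ∞ F (s, x))
    (hd : fderiv ℝ F (s, x) e0 ≠ 0) :
    ∃ ψ : X3 → ℝ, ContDiffAt ℝ ∞ ψ x ∧ ψ x = s ∧ ∀ᶠ y in 𝓝 x, F (ψ y, y) = F (s, x) := by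
  have pn : (∞ : WithTop ℕ∞) ≠ 0 := by simp
  have hf : ContDiffAt ℝ ∞ (fun u : X3 × ℝ => F (u.2, u.1)) (x, s) :=
    hF.comp (x, s) (f := fun u : X3 × ℝ => (u.2, u.1)) (by fun_prop)
  have h1 : HasDerivAt (fun t : ℝ => F (t, x)) (fderiv ℝ F (s, x) e0) s :=
    (hF.differentiableAt pn).hasFDerivAt.comp_hasDerivAt s
      ((hasDerivAt_id s).prodMk (hasDerivAt_const s x))
  have h2 := (hf.differentiableAt pn).hasFDerivAt.comp s (hasFDerivAt_prodMk_right (𝕜 := ℝ) x s)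
  have inv : (fderiv ℝ (fun u : X3 × ℝ => F (u.2, u.1)) (x, s) ∘L
      ContinuousLinearMap.inr ℝ X3 ℝ).IsInvertible := ⟨_, (h1.hasFDerivAt_equiv hd).unique h2⟩
  exact ⟨_, hf.contDiffAt_implicitFunction pn inv, hf.implicitFunction_apply_self pn inv,
    hf.eventually_apply_implicitFunction pn inv⟩

theorem root1 {F : R4 → ℝ} {S : X3 → ℝ} {x : X3} {a c : ℝ} (hc : |S x - c| < a)
    (hF : ContDiffAt ℝ ∞ F (S x, x)) (h0 : F (S x, x) = 0) (hd : fderiv ℝ F (S x, x) e0 ≠ 0)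
    (hu : ∀ᶠ y in 𝓝 x, ∀ s, |s - c| < a → F (s, y) = 0 → s = S y) :
    ContDiffAt ℝ ∞ S x ∧ ∀ᶠ y in 𝓝 x, F (S y, y) = 0 := by
  obtain ⟨ψ, h1, h2, h3⟩ := impl hF hd
  have e : S =ᶠ[𝓝 x] ψ := by
    filter_upwards [h3, hu, (h1.continuousAt.sub_const c).abs.eventually_lt_const
      (by rwa [h2])] with y k1 k2 k3 using (k2 _ k3 (k1.trans h0)).symm
  exact ⟨h1.congr_of_eventuallyEq e, (e.and h3).mono fun y k => by rw [k.1, k.2, h0]⟩

theorem root : ROOT := by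
  intro F S x a ha hF h0 hd hu
  obtain ⟨h1, h2⟩ := root1 (by simpa using ha) hF.at h0 hd hu
  have c : ContinuousAt (fun y => ((S y, y) : R4)) x := h1.continuousAt.prodMk continuousAt_id
  refine ⟨?_, h2⟩
  filter_upwards [h2, hu.eventually_nhds, c.eventually hF,
    c.eventually ((hF.fderiv.cont.clm_apply continuousAt_const).eventually_ne hd),
    (h1.continuousAt.sub_const (S x)).abs.eventually_lt_const (by simpa using ha)]
    with y k1 k2 k3 k4 k5 using (root1 k5 k3 k1 k4 k2).1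

theorem dot_le (p q : Y2) : |dot p q| ≤ 2 * ‖p‖ * ‖q‖ := by
  have h1 : |p.1 * q.1| ≤ ‖p‖ * ‖q‖ := by
    rw [abs_mul]; exact mul_le_mul (norm_fst_le p) (norm_fst_le q) (abs_nonneg _) (norm_nonneg _)
  have h2 : |p.2 * q.2| ≤ ‖p‖ * ‖q‖ := by
    rw [abs_mul]; exact mul_le_mul (norm_snd_le p) (norm_snd_le q) (abs_nonneg _) (norm_nonneg _)
  have := abs_add_le (p.1 * q.1) (p.2 * q.2)
  unfold dot
  linarith

variable {C1 P : ℝ} {Y : R4 → E5} {S : X3 → ℝ} {η0 : X3 → Y2} {x : X3} {z : R4}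

theorem kv_eq (h : DifferentiableAt ℝ Y z) (w : R4) :
    kv Y w z = (fderiv ℝ Y z w).1 - dot (Y z).2.2 (fderiv ℝ Y z w).2.1 := by
  have e : fderiv ℝ (Ph Y) z = _ :=
    (hasFDerivAt_fst.prodMk (h.hasFDerivAt.fst.prodMk h.hasFDerivAt.snd.fst)).fderiv
  rw [kv, e]
  simp [xp, cv, dot]
  ring

theorem kv_lin (h : ∀ a, kv Y (ey a) z = 0) (ξ : X3) : kv Y (0, ξ) z = kv Y e1 z * ξ.1 := by
  have e : ((0, ξ) : R4) = ξ.1 • e1 + ξ.2.1 • ey 0 + ξ.2.2 • ey 1 := by simp [e1, ey]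
  have h0 := h 0
  have h1 := h 1
  simp only [kv] at h0 h1 ⊢
  rw [e]
  simp only [map_add, map_smul, h0, h1, smul_eq_mul]
  ring

/-- The derivatives on the slice. -/
theorem sx_fd (h : Sx C1 P Y S η0 x) (ξ : X3) : fderiv ℝ (fun y => Y (S y, y)) x ξ =
    fderiv ℝ S x ξ • fderiv ℝ Y (S x, x) e0 + fderiv ℝ Y (S x, x) (0, ξ) ∧
    fderiv ℝ (fun y => (Y (S x, y)).2.1 - η0 y) x ξ =
      (fderiv ℝ Y (S x, x) (0, ξ)).2.1 - fderiv ℝ η0 x ξ := by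
  have a := h.sm.1.diff.hasFDerivAt
  have b := (a.comp x (f := fun y => (S y, y))
    (h.sm.2.1.diff.hasFDerivAt.prodMk (hasFDerivAt_id x))).fderiv
  have c := ((a.comp x (hasFDerivAt_prodMk_right (S x) x)).snd.fst.sub
    h.sm.2.2.diff.hasFDerivAt).fderiv
  refine ⟨(DFunLike.congr_fun b ξ).trans ?_, DFunLike.congr_fun c ξ⟩
  rw [← map_smul, ← map_add, show e0 = (1, 0) from rfl]
  simp

theorem sx_pt (h1 : 1 ≤ C1) (h : Sx C1 P Y S η0 x) :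
    ‖fderiv ℝ (fun y => (Y (S y, y)).2.1 - η0 y) x‖ ≤ 3 / 20 * C1⁻¹ ∧
    (∃ κ ∈ Icc (12 * C1)⁻¹ (12 * C1), ∃ p : Y2, ‖p‖ ≤ 6 * P ∧ ∀ ξ,
      fderiv ℝ (fun y => (Y (S y, y)).1) x ξ =
        κ * ξ.1 + dot p (fderiv ℝ (fun y => (Y (S y, y)).2.1) x ξ)) ∧
    ∀ a, |fderiv ℝ S x (ey a).2| ≤ 12 * C1 * P := by
  obtain ⟨c, c3, cr, cη, hc⟩ := h.slope
  have d : DifferentiableAt ℝ (fun y => Y (S y, y)) x :=
    (h.sm.1.comp (f := fun y => (S y, y)) (h.sm.2.1.prod (.of contDiff_id))).diff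
  have f1 := fun ξ => DFunLike.congr_fun d.hasFDerivAt.fst.fderiv ξ
  have f2 := fun ξ => DFunLike.congr_fun d.hasFDerivAt.snd.fst.fderiv ξ
  have f3 := fun ξ => DFunLike.congr_fun
    (d.hasFDerivAt.snd.fst.sub h.sm.2.2.diff.hasFDerivAt).fderiv ξ
  have k := fun ξ => (kv_lin h.kap.1 ξ).symm.trans (kv_eq h.sm.1.diff _)
  have nr := fun ξ => (fderiv ℝ _ x).le_of_opNorm_le h.near ξ
  have rf := fun ξ => (fderiv ℝ _ x).le_of_opNorm_le h.ref.1 ξ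
  have hp := h.p
  obtain ⟨k1, k2⟩ := h.kap.2
  simp only [ContinuousLinearMap.comp_apply, ContinuousLinearMap.coe_fst', (sx_fd h _).1,
    ContinuousLinearMap.coe_snd', sub_apply, hc, (sx_fd h _).2] at f1 f2 f3 nr
  generalize kv Y e1 (S x, x) = κ at *
  generalize (Y (S x, x)).2.2 = p at *
  generalize fderiv ℝ Y (S x, x) e0 = V at *
  have i0 : 0 < C1⁻¹ := by positivity
  have i1 : C1 * C1⁻¹ = 1 := mul_inv_cancel₀ (by linarith)
  have i2 : C1⁻¹ ≤ 1 := inv_le_one_of_one_le₀ h1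
  rw [mul_inv] at k1 nr
  rw [mul_inv, ← inv_pow] at cη
  have p0 := norm_nonneg p
  have v0 : 0 ≤ |c| * ‖V.2.1‖ := by positivity
  have De : ∀ ξ, ‖(fderiv ℝ Y (S x, x) (0, ξ)).2.1‖ ≤ 9 / 8 * C1 * ‖ξ‖ := fun ξ => by
    have := norm_le_norm_add_norm_sub' (fderiv ℝ Y (S x, x) (0, ξ)).2.1 (fderiv ℝ η0 x ξ)
    nlinarith [nr ξ, rf ξ, norm_nonneg ξ, mul_le_mul_of_nonneg_right (i2.trans h1) (norm_nonneg ξ)]
  have Dd : ∀ ξ, |dot p (fderiv ℝ Y (S x, x) (0, ξ)).2.1| ≤ 9 / 4 * C1 * ‖p‖ * ‖ξ‖ := fun ξ =>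
    (dot_le _ _).trans ((mul_le_mul_of_nonneg_left (De ξ) (by positivity)).trans_eq (by ring))
  have Dr : ∀ ξ, |(fderiv ℝ Y (S x, x) (0, ξ)).1| ≤ 9 / 4 * C1 * (1 + ‖p‖) * ‖ξ‖ := fun ξ => by
    have a1 : |κ * ξ.1| ≤ 2 * C1 * ‖ξ‖ := by
      rw [abs_mul, abs_of_pos (by linarith : 0 < κ)]
      exact mul_le_mul k2 (norm_fst_le ξ) (abs_nonneg _) (by linarith)
    have a2 := abs_add_le (κ * ξ.1) (dot p (fderiv ℝ Y (S x, x) (0, ξ)).2.1)
    rw [k ξ, sub_add_cancel, ← k ξ] at a2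
    nlinarith [Dd ξ, mul_nonneg (zero_le_one.trans h1) (norm_nonneg ξ)]
  refine ⟨ContinuousLinearMap.opNorm_le_bound _ (by positivity) fun ξ => ?_, ?_, fun a => ?_⟩
  · refine (congrArg norm (f3 ξ)).trans_le ?_
    rw [Prod.snd_add, Prod.fst_add, add_sub_assoc]
    refine (norm_add_le _ _).trans ?_
    rw [Prod.smul_snd, Prod.smul_fst, norm_smul, Real.norm_eq_abs, abs_mul, mul_right_comm]
    have a1 := mul_le_mul_of_nonneg_left (Dr ξ) v0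
    have a2 := mul_le_mul_of_nonneg_left cη (show 0 ≤ 9 / 4 * C1 * ‖ξ‖ by positivity)
    have a3 : 9 / 4 * C1 * ‖ξ‖ * (100⁻¹ * C1⁻¹ ^ 2) = 9 / 400 * C1⁻¹ * ‖ξ‖ := by
      linear_combination 9 / 400 * C1⁻¹ * ‖ξ‖ * i1
    nlinarith [nr ξ, mul_nonneg i0.le (norm_nonneg ξ)]
  · have b1 : |c * dot p V.2.1| ≤ 1 / 50 := by
      rw [abs_mul]
      nlinarith [mul_le_mul_of_nonneg_left (dot_le p V.2.1) (abs_nonneg c), pow_le_one₀ i0.le i2 (n := 2)]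
    obtain ⟨b2, b3⟩ := abs_le.1 b1
    have b4 : 0 < 1 + c * dot p V.2.1 := by linarith
    have t1 : 1 / 2 ≤ (1 + c * V.1) / (1 + c * dot p V.2.1) := by
      rw [le_div_iff₀ b4]; linarith [cr.1]
    have t2 : (1 + c * V.1) / (1 + c * dot p V.2.1) ≤ 6 := by
      rw [div_le_iff₀ b4]; linarith [cr.2]
    refine ⟨(1 + c * V.1) / (1 + c * dot p V.2.1) * κ, ⟨?_, ?_⟩,
      ((1 + c * V.1) / (1 + c * dot p V.2.1)) • p, ?_, fun ξ => ?_⟩
    · rw [mul_inv]; nlinarith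
    · nlinarith
    · rw [norm_smul, Real.norm_of_nonneg (by linarith)]; nlinarith
    · rw [f1 ξ, f2 ξ]
      have := k ξ
      have b5 := b4.ne'
      simp only [dot, Prod.fst_add, Prod.snd_add, Prod.smul_fst, Prod.smul_snd, smul_eq_mul] at *
      field_simp
      linear_combination (-(1 + c * V.1)) * this
  · have a0 : (ey a).2.1 = 0 ∧ ‖(ey a).2‖ = 1 := by fin_cases a <;> simp [ey, Prod.norm_def]
    have a1 := k (ey a).2
    have a2 := Dd (ey a).2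
    rw [a0.1, mul_zero, eq_comm, sub_eq_zero] at a1
    rw [a0.2, ← a1] at a2
    rw [hc, abs_mul]
    nlinarith [mul_le_mul c3 a2 (abs_nonneg _) (by norm_num),
      mul_le_mul_of_nonneg_left hp (zero_le_one.trans h1), mul_nonneg (zero_le_one.trans h1) p0]

theorem slc : SLC := by
  intro C1 h1 P Y S η0 W hW h hb
  have s : ∀ x ∈ W, SA (fun y => Y (S y, y)) x := fun x m =>
    (h x m).sm.1.comp (f := fun y => (S y, y)) ((h x m).sm.2.1.prod (.of contDiff_id))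
  have d : ∀ x ∈ W, DifferentiableAt ℝ (fun y => (Y (S y, y)).2.1) x := fun x m =>
    (s x m).diff.snd.fst
  have i0 : 0 < C1⁻¹ := by positivity
  have i1 : C1 * C1⁻¹ = 1 := mul_inv_cancel₀ (by linarith)
  have i2 : C1⁻¹ ≤ 1 := inv_le_one_of_one_le₀ h1
  have ab : ∀ {u v w : ℝ}, 0 ≤ u → 0 ≤ v → u ≤ C1 * w → w ≤ v + 3 / 20 * C1⁻¹ * u →
      u ≤ 2 * C1 * v := fun {u v w} u0 v0 k1 k2 => by
    have := mul_le_mul_of_nonneg_left k2 (zero_le_one.trans h1)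
    have e : C1 * (v + 3 / 20 * C1⁻¹ * u) = C1 * v + 3 / 20 * u := by
      linear_combination 3 / 20 * u * i1
    nlinarith [mul_nonneg (zero_le_one.trans h1) v0]
  refine ⟨⟨⟨fun x m => (s x m).at.fst.contDiffWithinAt,
    fun x m => (s x m).at.snd.fst.contDiffWithinAt⟩, fun x m => ?_, fun x m x' m' e => ?_,
    fun x m => (sx_pt h1 (h x m)).2.1⟩, fun x m => (sx_pt h1 (h x m)).2.2⟩
  · have k := (sx_pt h1 (h x m)).1
    rw [fderiv_fun_sub (d x m) (h x m).sm.2.2.diff] at k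
    refine ⟨(norm_le_norm_add_norm_sub' _ (fderiv ℝ η0 x)).trans (by linarith [(h x m).ref.1]),
      fun y => ab (norm_nonneg _) (norm_nonneg _) ((h x m).ref.2 y)
        ((norm_le_norm_add_norm_sub _ _).trans (add_le_add le_rfl ?_))⟩
    simpa using ContinuousLinearMap.le_of_opNorm_le _ k (0, y)
  · have k := hW.norm_image_sub_le_of_norm_fderiv_le (𝕜 := ℝ)
      (fun x m => (d x m).sub (h x m).sm.2.2.diff) (fun x m => (sx_pt h1 (h x m)).1) m' m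
    have n : ‖x - x'‖ = ‖x.2 - x'.2‖ := by simp [Prod.norm_def (x - x'), e]
    refine ab (norm_nonneg _) (norm_nonneg _) (hb x m x' m' e)
      ((norm_le_norm_add_norm_sub _ _).trans (add_le_add le_rfl ?_))
    rw [← n, sub_sub_sub_comm]
    exact k

end Vale.Agent.P354HN
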